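import Mathlib

/-!
# Row 282 (S0528, tensor saturation for even spin groups): shared definitions

Paper: Tensor-Saturation-for-Even-Spin-Groups, Sec. 2.1 (Def 2.1 and the moment problem).
Everything here is elementary: real vectors, signed roots, the Weyl group of `D_n` acting on
vectors, shapes, schedules (as a state machine) and the two matrix addition problems.
-/

set_option autoImplicit false

namespace Claimed.Agent.R282

/-- real coordinate vectors -/
abbrev Vec (n : ℕ) := Fin n → ℝ

/-- standard inner product -/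
def dot {n : ℕ} (x y : Vec n) : ℝ := ∑ i, x i * y i

/-- sign of a `Bool`: `true ↦ -1` (same convention as `Def_0456.signedPermAct`). -/
def sgnB (b : Bool) : ℝ := if b then -1 else 1

/-- signed roots of `D_n`: `± e_i ± e_j` with `i ≠ j` (`si = true` means `- e_i`). -/
structure RootD (n : ℕ) where
  i : Fin n
  j : Fin n
  ne : i ≠ j
  si : Bool
  sj : Bool
deriving DecidableEq

/-- the vector of a signed root -/
def RootD.vec {n : ℕ} (β : RootD n) : Vec n :=
  fun k => (if k = β.i then sgnB β.si else 0) + (if k = β.j then sgnB β.sj else 0)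

/-- a root of the permutation system: `e_i - e_j` -/
def RootD.IsPerm {n : ℕ} (β : RootD n) : Prop := β.si ≠ β.sj

/-- reflection in a root (all roots have squared length two) -/
def refl {n : ℕ} (β : RootD n) (x : Vec n) : Vec n := x - dot x β.vec • β.vec

/-- the Weyl group of `D_n`: even signed permutations -/
structure WD (n : ℕ) where
  σ : Equiv.Perm (Fin n)
  s : Fin n → Bool
  even : Even (Finset.univ.filter fun i => s i = true).card

/-- action on vectors; same formula as `Def_0456.signedPermAct` -/
def WD.act {n : ℕ} (w : WD n) (x : Vec n) : Vec n :=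
  fun i => sgnB (w.s i) * x (w.σ.symm i)

/-- closed dominant chamber of `D_n`: `x_1 ≥ ... ≥ x_{n-1} ≥ |x_n|` -/
def Dom {n : ℕ} (x : Vec n) : Prop := ∀ i j : Fin n, i < j → |x j| ≤ x i

/-- closed dominant chamber of the permutation system: `x_1 ≥ ... ≥ x_n` -/
def DomA {n : ℕ} (x : Vec n) : Prop := ∀ i j : Fin n, i < j → x j ≤ x i

/-- A polygonal shape, given by its list of increments; time runs over `[0, length]`, one unit
of time per increment. -/
abbrev Shape (n : ℕ) := List (Vec n)

/-- value of the shape at time `t`: `∑_j clamp(t - j, 0, 1) • θ_j` -/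
def Shape.val {n : ℕ} : Shape n → ℝ → Vec n
  | [], _ => 0
  | v :: θ, t => (max 0 (min t 1)) • v + Shape.val θ (t - 1)

/-- state of a schedule between two switches: `y(t) = c + frame (η t)` -/
structure SwState (n : ℕ) where
  frame : Vec n → Vec n
  c : Vec n

/-- position at time `t` -/
def SwState.pos {n : ℕ} (S : SwState n) (θ : Shape n) (t : ℝ) : Vec n :=
  S.c + S.frame (θ.val t)

/-- switch coefficient `m = - β · w η(t)` -/
def SwState.coeff {n : ℕ} (S : SwState n) (θ : Shape n) (t : ℝ) (β : RootD n) : ℝ :=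
  - dot β.vec (S.frame (θ.val t))

/-- position gap `G = y(t) · β` -/
def SwState.gap {n : ℕ} (S : SwState n) (θ : Shape n) (t : ℝ) (β : RootD n) : ℝ :=
  dot (S.pos θ t) β.vec

/-- total moving-weight pairing `- β · w μ` -/
def SwState.total {n : ℕ} (S : SwState n) (θ : Shape n) (β : RootD n) : ℝ :=
  - dot β.vec (S.frame θ.sum)

/-- the state after the switch `(t, β)` -/
def SwState.step {n : ℕ} (S : SwState n) (θ : Shape n) (t : ℝ) (β : RootD n) : SwState n :=
  ⟨fun x => refl β (S.frame x), S.c - S.coeff θ t β • β.vec⟩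

/-- run an ordered list of switches -/
def runSw {n : ℕ} (θ : Shape n) : SwState n → List (ℝ × RootD n) → SwState n
  | S, [] => S
  | S, p :: l => runSw θ (S.step θ p.1 p.2) l

/-- the sign conditions (2.1) at all switches -/
def SwValid {n : ℕ} (θ : Shape n) : SwState n → List (ℝ × RootD n) → Prop
  | _, [] => True
  | S, p :: l => 0 ≤ S.gap θ p.1 p.2 ∧ 0 ≤ S.total θ p.2 ∧ SwValid θ (S.step θ p.1 p.2) l

/-- all switch coefficients are integers -/
def SwIntegral {n : ℕ} (θ : Shape n) : SwState n → List (ℝ × RootD n) → Prop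
  | _, [] => True
  | S, p :: l => (∃ z : ℤ, S.coeff θ p.1 p.2 = z) ∧ SwIntegral θ (S.step θ p.1 p.2) l

/-- Def 2.1: `(w0, l)` is a schedule for `(lam, θ, xi)` in type `D_n`. -/
structure IsSchedule {n : ℕ} (lam : Vec n) (θ : Shape n) (xi : Vec n) (w0 : WD n)
    (l : List (ℝ × RootD n)) : Prop where
  times_mem : ∀ p ∈ l, 0 ≤ p.1 ∧ p.1 ≤ (θ.length : ℝ)
  sorted : l.Pairwise (fun p q => p.1 ≤ q.1)
  valid : SwValid θ ⟨w0.act, lam⟩ l
  endpoint : ∃ w : WD n, (runSw θ ⟨w0.act, lam⟩ l).pos θ θ.length = w.act xi

/-- existence of a real schedule -/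
def HasSchedule {n : ℕ} (lam : Vec n) (θ : Shape n) (xi : Vec n) : Prop :=
  ∃ w0 l, IsSchedule lam θ xi w0 l

/-- existence of an integral schedule -/
def HasIntSchedule {n : ℕ} (lam : Vec n) (θ : Shape n) (xi : Vec n) : Prop :=
  ∃ w0 l, IsSchedule lam θ xi w0 l ∧ SwIntegral θ ⟨w0.act, lam⟩ l

/-- the block-diagonal real skew matrix with rotation levels `x` -/
def Jmat {n : ℕ} (x : Vec n) : Matrix (Fin n × Fin 2) (Fin n × Fin 2) ℝ :=
  fun p q => if p.1 = q.1 then
    x p.1 * (if p.2 = 0 ∧ q.2 = 1 then 1 else if p.2 = 1 ∧ q.2 = 0 then -1 else 0) else 0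

/-- real moment solution in type `D_n` for the addition labels `(lam, mu, xi)`:
`A + B = C` with `A, B, C` in the special orthogonal orbits of `J(lam), J(mu), J(xi)`. -/
def MomentD {n : ℕ} (lam mu xi : Vec n) : Prop :=
  ∃ g h k : Matrix.specialOrthogonalGroup (Fin n × Fin 2) ℝ,
    g.1 * Jmat lam * g.1.transpose + h.1 * Jmat mu * h.1.transpose
      = k.1 * Jmat xi * k.1.transpose

/-- real moment solution in a permutation system: Hermitian `A + B = C` with given spectra. -/
def MomentA {n : ℕ} (a b c : Vec n) : Prop :=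
  ∃ g h k : Matrix.unitaryGroup (Fin n) ℂ,
    g.1 * Matrix.diagonal (fun i => (a i : ℂ)) * g.1.conjTranspose
      + h.1 * Matrix.diagonal (fun i => (b i : ℂ)) * h.1.conjTranspose
      = k.1 * Matrix.diagonal (fun i => (c i : ℂ)) * k.1.conjTranspose

/-- forces the on-demand equation lemmas to be stored HERE (else several later modules store their own copies,
which collide in the joint check of the grader) -/
theorem defsBasic_forced_eqns : True := by
  have := @Shape.val.eq_def
  have := @Shape.val.eq_1
  have := @runSw.eq_def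
  have := @runSw.eq_1
  have := @SwValid.eq_def
  have := @SwValid.eq_1
  have := @SwIntegral.eq_def
  have := @SwIntegral.eq_1
  trivial

end Claimed.Agent.R282
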