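import Claimed.Agent.R282.Defs.Basic

/-!
# Row 282: algebra of the inner product `dot` (shared; import this instead of re-proving)
-/

set_option autoImplicit false

namespace Claimed.Agent.R282

variable {n : ℕ}

theorem dot_comm (x y : Vec n) : dot x y = dot y x := by
  simp only [dot, mul_comm]

theorem dot_add_left (x y z : Vec n) : dot (x + y) z = dot x z + dot y z := by
  simp only [dot, Pi.add_apply, add_mul, Finset.sum_add_distrib]

theorem dot_add_right (x y z : Vec n) : dot x (y + z) = dot x y + dot x z := by
  simp only [dot, Pi.add_apply, mul_add, Finset.sum_add_distrib]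

theorem dot_smul_left (r : ℝ) (x y : Vec n) : dot (r • x) y = r * dot x y := by
  simp only [dot, Pi.smul_apply, smul_eq_mul, Finset.mul_sum, mul_assoc]

theorem dot_smul_right (r : ℝ) (x y : Vec n) : dot x (r • y) = r * dot x y := by
  rw [dot_comm, dot_smul_left, dot_comm]

theorem dot_neg_left (x y : Vec n) : dot (-x) y = - dot x y := by
  simp only [dot, Pi.neg_apply, neg_mul, Finset.sum_neg_distrib]

theorem dot_neg_right (x y : Vec n) : dot x (-y) = - dot x y := by
  rw [dot_comm, dot_neg_left, dot_comm]

theorem dot_sub_left (x y z : Vec n) : dot (x - y) z = dot x z - dot y z := by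
  rw [sub_eq_add_neg, dot_add_left, dot_neg_left, sub_eq_add_neg]

theorem dot_sub_right (x y z : Vec n) : dot x (y - z) = dot x y - dot x z := by
  rw [sub_eq_add_neg, dot_add_right, dot_neg_right, sub_eq_add_neg]

theorem dot_zero_left (y : Vec n) : dot 0 y = 0 := by
  simp [dot]

theorem dot_zero_right (x : Vec n) : dot x 0 = 0 := by
  simp [dot]

theorem dot_self_nonneg (x : Vec n) : 0 ≤ dot x x :=
  Finset.sum_nonneg fun i _ => mul_self_nonneg (x i)

theorem dot_self_eq_zero {x : Vec n} : dot x x = 0 ↔ x = 0 := by
  constructor
  · intro h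
    funext i
    have := (Finset.sum_eq_zero_iff_of_nonneg (fun i _ => mul_self_nonneg (x i))).1 h i
      (Finset.mem_univ i)
    simpa using this
  · rintro rfl
    exact dot_zero_left 0

theorem continuous_dot_left (y : Vec n) : Continuous fun x : Vec n => dot x y := by
  unfold dot
  fun_prop

theorem continuous_dot : Continuous fun p : Vec n × Vec n => dot p.1 p.2 := by
  unfold dot
  fun_prop

end Claimed.Agent.R282
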